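import Mathlib

open scoped ContDiff

namespace Vale.Agent.H62.P229

/-- `IsSmoothIsometricImmersionOn E F G U Φ`: the map `Φ` is a `C^∞` isometric immersion of the
open set `U` of the plane, carrying the metric `E dx² + 2 F dx dy + G dy²`, into Euclidean
three-space: `Φ` is `C^∞` on `U` and `⟨∂_x Φ, ∂_x Φ⟩ = E`, `⟨∂_x Φ, ∂_y Φ⟩ = F`,
`⟨∂_y Φ, ∂_y Φ⟩ = G` at every point of `U`. -/
def IsSmoothIsometricImmersionOn (E F G : ℝ × ℝ → ℝ) (U : Set (ℝ × ℝ))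
    (Φ : ℝ × ℝ → EuclideanSpace ℝ (Fin 3)) : Prop :=
  ContDiffOn ℝ ∞ Φ U ∧ ∀ p ∈ U,
    inner ℝ (fderiv ℝ Φ p (1, 0)) (fderiv ℝ Φ p (1, 0)) = E p ∧
    inner ℝ (fderiv ℝ Φ p (1, 0)) (fderiv ℝ Φ p (0, 1)) = F p ∧
    inner ℝ (fderiv ℝ Φ p (0, 1)) (fderiv ℝ Φ p (0, 1)) = G p

/-- `LocallySmoothlyRealizableAt E F G p`: the metric `E dx² + 2 F dx dy + G dy²` is positive
definite on some open neighbourhood `U` of `p`, and `U` admits a `C^∞` isometric immersion into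
Euclidean three-space. -/
def LocallySmoothlyRealizableAt (E F G : ℝ × ℝ → ℝ) (p : ℝ × ℝ) : Prop :=
  ∃ (U : Set (ℝ × ℝ)) (Φ : ℝ × ℝ → EuclideanSpace ℝ (Fin 3)),
    IsOpen U ∧ p ∈ U ∧ (∀ q ∈ U, 0 < E q ∧ 0 < E q * G q - F q ^ 2) ∧
      IsSmoothIsometricImmersionOn E F G U Φ

end Vale.Agent.H62.P229
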