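import Mathlib
import Vale.Agent.H62.P229.Defs

open scoped ContDiff Topology
open Set

namespace Vale.Agent.H62.P229

/-- The `i`-th component of a directional derivative of a Euclidean-valued map, computed along
a curve. -/
theorem fderiv_apply_comp {Φ : ℝ × ℝ → EuclideanSpace ℝ (Fin 3)} {p v : ℝ × ℝ}
    (hΦ : DifferentiableAt ℝ Φ p) {γ : ℝ → ℝ × ℝ} {t : ℝ} (hγ : HasDerivAt γ v t)
    (hγt : γ t = p) (i : Fin 3) {d : ℝ} (hd : HasDerivAt (fun τ => Φ (γ τ) i) d t) :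
    (fderiv ℝ Φ p v) i = d := by
  have h1 : HasFDerivAt Φ (fderiv ℝ Φ p) (γ t) := by rw [hγt]; exact hΦ.hasFDerivAt
  have h2 : HasDerivAt (Φ ∘ γ) (fderiv ℝ Φ p v) t := h1.comp_hasDerivAt t hγ
  have h3 : HasDerivAt (fun τ => (EuclideanSpace.proj i : EuclideanSpace ℝ (Fin 3) →L[ℝ] ℝ)
      (Φ (γ τ))) ((EuclideanSpace.proj i : EuclideanSpace ℝ (Fin 3) →L[ℝ] ℝ) (fderiv ℝ Φ p v)) t :=
    (EuclideanSpace.proj i : EuclideanSpace ℝ (Fin 3) →L[ℝ] ℝ).hasFDerivAt.comp_hasDerivAt t h2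
  exact h3.unique hd

theorem inner_eq_three (u w : EuclideanSpace ℝ (Fin 3)) :
    inner ℝ u w = u 0 * w 0 + u 1 * w 1 + u 2 * w 2 := by
  simp [PiLp.inner_apply, Fin.sum_univ_three]
  ring

end Vale.Agent.H62.P229
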