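import Mathlib

open scoped ContDiff Topology
open Set

namespace Vale.Agent.H62.P229

/-- A smooth function on an open interval has a smooth primitive there. -/
theorem exists_primitive_Ioo {u : ℝ → ℝ} {a b x₀ : ℝ} (hx₀ : x₀ ∈ Ioo a b)
    (hu : ContDiffOn ℝ ∞ u (Ioo a b)) :
    ∃ U : ℝ → ℝ, ContDiffOn ℝ ∞ U (Ioo a b) ∧ ∀ x ∈ Ioo a b, HasDerivAt U (u x) x := by
  have hcont : ContinuousOn u (Ioo a b) := hu.continuousOn
  have hderiv : ∀ x ∈ Ioo a b, HasDerivAt (fun x => ∫ t in x₀..x, u t) (u x) x := by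
    intro x hx
    have hsub : uIcc x₀ x ⊆ Ioo a b := by
      intro t ht
      rcases le_total x₀ x with h | h
      · rw [uIcc_of_le h] at ht
        exact ⟨lt_of_lt_of_le hx₀.1 ht.1, lt_of_le_of_lt ht.2 hx.2⟩
      · rw [uIcc_of_ge h] at ht
        exact ⟨lt_of_lt_of_le hx.1 ht.1, lt_of_le_of_lt ht.2 hx₀.2⟩
    refine intervalIntegral.integral_hasDerivAt_right ?_ ?_ ?_
    · exact (hcont.mono hsub).intervalIntegrable
    · exact hcont.stronglyMeasurableAtFilter isOpen_Ioo x hx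
    · exact hcont.continuousAt (isOpen_Ioo.mem_nhds hx)
  refine ⟨fun x => ∫ t in x₀..x, u t, ?_, hderiv⟩
  rw [contDiffOn_infty_iff_deriv_of_isOpen isOpen_Ioo]
  refine ⟨fun x hx => (hderiv x hx).differentiableAt.differentiableWithinAt, ?_⟩
  exact hu.congr fun x hx => (hderiv x hx).deriv

/-- A smooth function on the line has a smooth primitive. -/
theorem exists_primitive {u : ℝ → ℝ} (hu : ContDiff ℝ ∞ u) :
    ∃ U : ℝ → ℝ, ContDiff ℝ ∞ U ∧ ∀ x, HasDerivAt U (u x) x := by
  have hcont : Continuous u := hu.continuous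
  have hderiv : ∀ x, HasDerivAt (fun x => ∫ t in (0:ℝ)..x, u t) (u x) x := by
    intro x
    exact intervalIntegral.integral_hasDerivAt_right (hcont.intervalIntegrable _ _)
      (hcont.stronglyMeasurableAtFilter _ _) hcont.continuousAt
  refine ⟨fun x => ∫ t in (0:ℝ)..x, u t, ?_, hderiv⟩
  rw [contDiff_infty_iff_deriv]
  refine ⟨fun x => (hderiv x).differentiableAt, ?_⟩
  have : deriv (fun x => ∫ t in (0:ℝ)..x, u t) = u := funext fun x => (hderiv x).deriv
  rw [this]
  exact hu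

end Vale.Agent.H62.P229
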