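import Mathlib
import Vale.Agent.H62.P229.Defs
import Vale.Agent.H62.P229.Prim
import Vale.Agent.H62.P229.Comp

open scoped ContDiff Topology
open Set

namespace Vale.Agent.H62.P229

theorem exists_small_scale {e c : ℝ} (he : 0 < e) (hc : 0 ≤ c) :
    ∃ μ : ℝ, 0 < μ ∧ μ ^ 2 * c < e := by
  have hpos : 0 < e / (2 * (c + 1)) := by positivity
  refine ⟨min 1 (e / (2 * (c + 1))), lt_min one_pos hpos, ?_⟩
  have h0 : 0 < min 1 (e / (2 * (c + 1))) := lt_min one_pos hpos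
  have h1 : min 1 (e / (2 * (c + 1))) ≤ 1 := min_le_left _ _
  have h2 : min 1 (e / (2 * (c + 1))) ≤ e / (2 * (c + 1)) := min_le_right _ _
  have h3 : e / (2 * (c + 1)) * c < e := by
    have : e / (2 * (c + 1)) * c = e * (c / (2 * (c + 1))) := by ring
    rw [this]
    have h4 : c / (2 * (c + 1)) < 1 := by
      rw [div_lt_one (by positivity)]; linarith
    nlinarith
  generalize min 1 (e / (2 * (c + 1))) = m at h0 h1 h2
  have h5 : m ^ 2 * c ≤ m * c := by
    have : m ^ 2 ≤ m := by nlinarith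
    exact mul_le_mul_of_nonneg_right this hc
  have h6 : m * c ≤ e / (2 * (c + 1)) * c := mul_le_mul_of_nonneg_right h2 hc
  linarith

theorem exists_Ioo_pos {h : ℝ → ℝ} (hh : Continuous h) {x₀ : ℝ} (h0 : 0 < h x₀) :
    ∃ ε > 0, ∀ x ∈ Ioo (x₀ - ε) (x₀ + ε), 0 < h x := by
  have hopen : IsOpen {x | 0 < h x} := isOpen_lt continuous_const hh
  obtain ⟨ε, hε, hball⟩ := Metric.isOpen_iff.1 hopen x₀ h0
  refine ⟨ε, hε, fun x hx => hball ?_⟩
  rw [Real.ball_eq_Ioo]
  exact hx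

/-- Molding-surface metrics are locally smoothly realizable. -/
theorem molding_realizable (E a b s : ℝ → ℝ)
    (hE : ContDiff ℝ ∞ E) (ha : ContDiff ℝ ∞ a) (hb : ContDiff ℝ ∞ b) (hs : ContDiff ℝ ∞ s)
    (x₀ y₀ : ℝ) (hE0 : 0 < E x₀) (hf0 : a y₀ + b y₀ * s x₀ ≠ 0) :
    LocallySmoothlyRealizableAt (fun p => E p.1) (fun _ => 0)
      (fun p => (a p.2 + b p.2 * s p.1) ^ 2) (x₀, y₀) := by
  obtain ⟨μ, hμ0, hμ⟩ := exists_small_scale hE0 (sq_nonneg (deriv s x₀))
  have hds : ContDiff ℝ ∞ (deriv s) := (contDiff_infty_iff_deriv.1 hs).2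
  have hsd : ∀ x, HasDerivAt s (deriv s x) x := fun x =>
    ((contDiff_infty_iff_deriv.1 hs).1 x).hasDerivAt
  set h : ℝ → ℝ := fun x => E x - μ ^ 2 * (deriv s x) ^ 2 with hh
  have hh_smooth : ContDiff ℝ ∞ h := hE.sub (contDiff_const.mul (hds.pow 2))
  have hh0 : 0 < h x₀ := by simp only [hh]; linarith
  obtain ⟨ε, hε, hεh⟩ := exists_Ioo_pos hh_smooth.continuous hh0
  have hx₀I : x₀ ∈ Ioo (x₀ - ε) (x₀ + ε) := ⟨by linarith, by linarith⟩
  obtain ⟨z, hz_smooth, hz⟩ := exists_primitive_Ioo hx₀I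
    ((hh_smooth.contDiffOn).sqrt (fun x hx => (hεh x hx).ne'))
  obtain ⟨θ, hθ_smooth, hθ⟩ := exists_primitive (u := fun y => b y / μ) (hb.div_const μ)
  obtain ⟨c₁, hc₁_smooth, hc₁⟩ := exists_primitive (u := fun y => - a y * Real.sin (θ y))
    (ha.neg.mul (Real.contDiff_sin.comp hθ_smooth))
  obtain ⟨c₂, hc₂_smooth, hc₂⟩ := exists_primitive (u := fun y => a y * Real.cos (θ y))
    (ha.mul (Real.contDiff_cos.comp hθ_smooth))
  set Φ : ℝ × ℝ → EuclideanSpace ℝ (Fin 3) := fun p =>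
    !₂[c₁ p.2 + μ * s p.1 * Real.cos (θ p.2), c₂ p.2 + μ * s p.1 * Real.sin (θ p.2), z p.1]
    with hΦ
  set V : Set (ℝ × ℝ) := {p | a p.2 + b p.2 * s p.1 ≠ 0} with hVdef
  have hV : IsOpen V := by
    have hcont : Continuous fun p : ℝ × ℝ => a p.2 + b p.2 * s p.1 :=
      (ha.continuous.comp continuous_snd).add
        ((hb.continuous.comp continuous_snd).mul (hs.continuous.comp continuous_fst))
    exact isOpen_ne_fun hcont continuous_const
  have hUopen : IsOpen ((Ioo (x₀ - ε) (x₀ + ε) ×ˢ (univ : Set ℝ)) ∩ V) :=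
    (isOpen_Ioo.prod isOpen_univ).inter hV
  have hΦ_smooth : ContDiffOn ℝ ∞ Φ ((Ioo (x₀ - ε) (x₀ + ε) ×ˢ (univ : Set ℝ)) ∩ V) := by
    rw [contDiffOn_euclidean]
    intro i
    fin_cases i
    · have : ContDiff ℝ ∞ fun p : ℝ × ℝ => c₁ p.2 + μ * s p.1 * Real.cos (θ p.2) :=
        (hc₁_smooth.comp contDiff_snd).add (((contDiff_const.mul (hs.comp contDiff_fst))).mul
          (Real.contDiff_cos.comp (hθ_smooth.comp contDiff_snd)))
      simpa [hΦ] using this.contDiffOn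
    · have : ContDiff ℝ ∞ fun p : ℝ × ℝ => c₂ p.2 + μ * s p.1 * Real.sin (θ p.2) :=
        (hc₂_smooth.comp contDiff_snd).add (((contDiff_const.mul (hs.comp contDiff_fst))).mul
          (Real.contDiff_sin.comp (hθ_smooth.comp contDiff_snd)))
      simpa [hΦ] using this.contDiffOn
    · have : ContDiffOn ℝ ∞ (fun p : ℝ × ℝ => z p.1)
          ((Ioo (x₀ - ε) (x₀ + ε) ×ˢ (univ : Set ℝ)) ∩ V) :=
        hz_smooth.comp contDiff_fst.contDiffOn (fun p hp => hp.1.1)
      simpa [hΦ] using this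
  refine ⟨(Ioo (x₀ - ε) (x₀ + ε) ×ˢ (univ : Set ℝ)) ∩ V, Φ, hUopen,
    ⟨⟨hx₀I, mem_univ _⟩, hf0⟩, ?_, hΦ_smooth, ?_⟩
  · rintro ⟨x, y⟩ ⟨⟨hx, -⟩, hxy⟩
    have hxy' : a y + b y * s x ≠ 0 := hxy
    have hEx : 0 < E x := by
      have := hεh x hx
      simp only [hh] at this
      nlinarith [sq_nonneg (μ * deriv s x)]
    refine ⟨hEx, ?_⟩
    have : 0 < (a y + b y * s x) ^ 2 := by positivity
    simp only
    nlinarith
  · rintro ⟨x, y⟩ hp
    obtain ⟨⟨hx, -⟩, hxy⟩ := hp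
    have hdiff : DifferentiableAt ℝ Φ (x, y) :=
      (hΦ_smooth.contDiffAt (hUopen.mem_nhds ⟨⟨hx, mem_univ _⟩, hxy⟩)).differentiableAt (by simp)
    have hγ₁ : HasDerivAt (fun τ : ℝ => (τ, y)) ((1 : ℝ), (0 : ℝ)) x :=
      (hasDerivAt_id x).prodMk (hasDerivAt_const x y)
    have hγ₂ : HasDerivAt (fun τ : ℝ => (x, τ)) ((0 : ℝ), (1 : ℝ)) y :=
      (hasDerivAt_const y x).prodMk (hasDerivAt_id y)
    have hx0 : (fderiv ℝ Φ (x, y) (1, 0)) 0 = μ * deriv s x * Real.cos (θ y) := by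
      refine fderiv_apply_comp hdiff hγ₁ rfl 0 ?_
      have : HasDerivAt (fun τ => c₁ y + μ * s τ * Real.cos (θ y))
          (μ * deriv s x * Real.cos (θ y)) x :=
        (((hsd x).const_mul μ).mul_const _).const_add _
      simpa [hΦ] using this
    have hx1 : (fderiv ℝ Φ (x, y) (1, 0)) 1 = μ * deriv s x * Real.sin (θ y) := by
      refine fderiv_apply_comp hdiff hγ₁ rfl 1 ?_
      have : HasDerivAt (fun τ => c₂ y + μ * s τ * Real.sin (θ y))
          (μ * deriv s x * Real.sin (θ y)) x :=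
        (((hsd x).const_mul μ).mul_const _).const_add _
      simpa [hΦ] using this
    have hx2 : (fderiv ℝ Φ (x, y) (1, 0)) 2 = Real.sqrt (h x) := by
      refine fderiv_apply_comp hdiff hγ₁ rfl 2 ?_
      simpa [hΦ] using hz x hx
    have hy0 : (fderiv ℝ Φ (x, y) (0, 1)) 0 =
        - a y * Real.sin (θ y) + μ * s x * (- Real.sin (θ y) * (b y / μ)) := by
      refine fderiv_apply_comp hdiff hγ₂ rfl 0 ?_
      have : HasDerivAt (fun τ => c₁ τ + μ * s x * Real.cos (θ τ))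
          (- a y * Real.sin (θ y) + μ * s x * (- Real.sin (θ y) * (b y / μ))) y :=
        (hc₁ y).add (((hθ y).cos).const_mul _)
      simpa [hΦ] using this
    have hy1 : (fderiv ℝ Φ (x, y) (0, 1)) 1 =
        a y * Real.cos (θ y) + μ * s x * (Real.cos (θ y) * (b y / μ)) := by
      refine fderiv_apply_comp hdiff hγ₂ rfl 1 ?_
      have : HasDerivAt (fun τ => c₂ τ + μ * s x * Real.sin (θ τ))
          (a y * Real.cos (θ y) + μ * s x * (Real.cos (θ y) * (b y / μ))) y :=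
        (hc₂ y).add (((hθ y).sin).const_mul _)
      simpa [hΦ] using this
    have hy2 : (fderiv ℝ Φ (x, y) (0, 1)) 2 = 0 := by
      refine fderiv_apply_comp hdiff hγ₂ rfl 2 ?_
      simpa [hΦ] using hasDerivAt_const y (z x)
    have hsq : Real.sqrt (h x) * Real.sqrt (h x) = h x := Real.mul_self_sqrt (hεh x hx).le
    have hcs : Real.sin (θ y) ^ 2 + Real.cos (θ y) ^ 2 = 1 := Real.sin_sq_add_cos_sq (θ y)
    have hμne : μ ≠ 0 := hμ0.ne'
    refine ⟨?_, ?_, ?_⟩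
    · rw [inner_eq_three, hx0, hx1, hx2]
      simp only [hh] at hsq ⊢
      have : μ * deriv s x * Real.cos (θ y) * (μ * deriv s x * Real.cos (θ y)) +
          μ * deriv s x * Real.sin (θ y) * (μ * deriv s x * Real.sin (θ y)) =
          μ ^ 2 * deriv s x ^ 2 * (Real.sin (θ y) ^ 2 + Real.cos (θ y) ^ 2) := by ring
      rw [this, hcs, hsq]
      ring
    · rw [inner_eq_three, hx0, hx1, hx2, hy0, hy1, hy2]
      field_simp
      ring
    · rw [inner_eq_three, hy0, hy1, hy2]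
      have : (-a y * Real.sin (θ y) + μ * s x * (-Real.sin (θ y) * (b y / μ))) *
            (-a y * Real.sin (θ y) + μ * s x * (-Real.sin (θ y) * (b y / μ))) +
          (a y * Real.cos (θ y) + μ * s x * (Real.cos (θ y) * (b y / μ))) *
            (a y * Real.cos (θ y) + μ * s x * (Real.cos (θ y) * (b y / μ))) + 0 * 0 =
          (a y + b y * s x) ^ 2 * (Real.sin (θ y) ^ 2 + Real.cos (θ y) ^ 2) := by
        field_simp
        ring
      rw [this, hcs]
      ring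

end Vale.Agent.H62.P229
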