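import Mathlib
import Vale.Agent.H62.P229.Defs
import Vale.Agent.H62.P229.Prim
import Vale.Agent.H62.P229.Comp
import Vale.Agent.H62.P229.Molding

open scoped ContDiff Topology
open Set

namespace Vale.Agent.H62.P229

theorem killing_alg1 (μ w D f e S C : ℝ) (hμ : μ ≠ 0) (hw : w ≠ 0) (h : S^2 + C^2 = 1) :
    (μ * (D / (2 * w)) * C + μ * w * (-S * (f / (μ * (w * w))))) *
      (μ * (D / (2 * w)) * C + μ * w * (-S * (f / (μ * (w * w))))) +
    (μ * (D / (2 * w)) * S + μ * w * (C * (f / (μ * (w * w))))) *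
      (μ * (D / (2 * w)) * S + μ * w * (C * (f / (μ * (w * w))))) +
    (4 * (e * (w * w) - f ^ 2) - μ ^ 2 * D ^ 2) / (4 * (w * w)) = e := by
  have hB : ∀ X : ℝ, μ * w * (X * (f / (μ * (w * w)))) = X * (f / w) := by
    intro X; field_simp
  rw [hB, hB]
  have h2 : (μ * (D / (2 * w)) * C + -S * (f / w)) * (μ * (D / (2 * w)) * C + -S * (f / w)) +
      (μ * (D / (2 * w)) * S + C * (f / w)) * (μ * (D / (2 * w)) * S + C * (f / w)) =
      ((μ * (D / (2 * w))) ^ 2 + (f / w) ^ 2) * (S ^ 2 + C ^ 2) := by ring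
  rw [h2, h, mul_one]
  field_simp
  ring

theorem killing_alg2 (μ w D f S C : ℝ) (hμ : μ ≠ 0) (hw : w ≠ 0) (h : S^2 + C^2 = 1) :
    (μ * (D / (2 * w)) * C + μ * w * (-S * (f / (μ * (w * w))))) *
      (μ * w * (-S * (1 / μ))) +
    (μ * (D / (2 * w)) * S + μ * w * (C * (f / (μ * (w * w))))) *
      (μ * w * (C * (1 / μ))) + 0 * 0 = f := by
  have hB : ∀ X : ℝ, μ * w * (X * (f / (μ * (w * w)))) = X * (f / w) := by
    intro X; field_simp
  have hB' : ∀ X : ℝ, μ * w * (X * (1 / μ)) = X * w := by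
    intro X; field_simp
  rw [hB, hB, hB', hB']
  have h2 : (μ * (D / (2 * w)) * C + -S * (f / w)) * (-S * w) +
      (μ * (D / (2 * w)) * S + C * (f / w)) * (C * w) + 0 * 0 =
      (f / w * w) * (S ^ 2 + C ^ 2) := by ring
  rw [h2, h, mul_one]
  field_simp

theorem killing_alg3 (μ w S C : ℝ) (hμ : μ ≠ 0) (h : S^2 + C^2 = 1) :
    (μ * w * (-S * (1 / μ))) * (μ * w * (-S * (1 / μ))) +
    (μ * w * (C * (1 / μ))) * (μ * w * (C * (1 / μ))) + 0 * 0 = w * w := by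
  have hB' : ∀ X : ℝ, μ * w * (X * (1 / μ)) = X * w := by
    intro X; field_simp
  rw [hB', hB']
  have h2 : -S * w * (-S * w) + C * w * (C * w) + 0 * 0 = (w * w) * (S ^ 2 + C ^ 2) := by ring
  rw [h2, h, mul_one]


/-- Metrics whose coefficients depend on one coordinate only (metrics with the Killing field
`∂_y`) are locally smoothly realizable. -/
theorem killing_realizable (E F G : ℝ → ℝ)
    (hE : ContDiff ℝ ∞ E) (hF : ContDiff ℝ ∞ F) (hG : ContDiff ℝ ∞ G)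
    (x₀ y₀ : ℝ) (hE0 : 0 < E x₀) (hdet : 0 < E x₀ * G x₀ - F x₀ ^ 2) :
    LocallySmoothlyRealizableAt (fun p => E p.1) (fun p => F p.1) (fun p => G p.1) (x₀, y₀) := by
  have hG0 : 0 < G x₀ := by
    by_contra hcon
    have hcon' : G x₀ ≤ 0 := not_lt.1 hcon
    nlinarith [sq_nonneg (F x₀)]
  obtain ⟨μ, hμ0, hμ⟩ := exists_small_scale (e := 4 * (E x₀ * G x₀ - F x₀ ^ 2))
    (by linarith) (sq_nonneg (deriv G x₀))
  have hμne : μ ≠ 0 := hμ0.ne'
  have hdG : ContDiff ℝ ∞ (deriv G) := (contDiff_infty_iff_deriv.1 hG).2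
  have hGd : ∀ x, HasDerivAt G (deriv G x) x := fun x =>
    ((contDiff_infty_iff_deriv.1 hG).1 x).hasDerivAt
  set k : ℝ → ℝ := fun x => 4 * (E x * G x - F x ^ 2) - μ ^ 2 * (deriv G x) ^ 2 with hk
  have hk_smooth : ContDiff ℝ ∞ k :=
    (contDiff_const.mul ((hE.mul hG).sub (hF.pow 2))).sub (contDiff_const.mul (hdG.pow 2))
  have hk0 : 0 < k x₀ := by simp only [hk]; linarith
  have hmin0 : 0 < min (G x₀) (k x₀) := lt_min hG0 hk0
  obtain ⟨ε, hε, hεm⟩ := exists_Ioo_pos (h := fun x => min (G x) (k x))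
    (hG.continuous.min hk_smooth.continuous) hmin0
  have hεG : ∀ x ∈ Ioo (x₀ - ε) (x₀ + ε), 0 < G x := fun x hx =>
    lt_of_lt_of_le (hεm x hx) (min_le_left _ _)
  have hεk : ∀ x ∈ Ioo (x₀ - ε) (x₀ + ε), 0 < k x := fun x hx =>
    lt_of_lt_of_le (hεm x hx) (min_le_right _ _)
  have hx₀I : x₀ ∈ Ioo (x₀ - ε) (x₀ + ε) := ⟨by linarith, by linarith⟩
  have hsqrtG : ContDiffOn ℝ ∞ (fun x => Real.sqrt (G x)) (Ioo (x₀ - ε) (x₀ + ε)) :=
    hG.contDiffOn.sqrt (fun x hx => (hεG x hx).ne')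
  obtain ⟨φ, hφ_smooth, hφ⟩ := exists_primitive_Ioo (u := fun x => F x / (μ * G x)) hx₀I
    (hF.contDiffOn.div (contDiff_const.mul hG).contDiffOn
      (fun x hx => mul_ne_zero hμne (hεG x hx).ne'))
  obtain ⟨H, hH_smooth, hH⟩ := exists_primitive_Ioo
    (u := fun x => Real.sqrt (k x / (4 * G x))) hx₀I
    ((hk_smooth.contDiffOn.div (contDiff_const.mul hG).contDiffOn
      (fun x hx => mul_ne_zero (by norm_num) (hεG x hx).ne')).sqrt
      (fun x hx => (div_pos (hεk x hx) (mul_pos (by norm_num) (hεG x hx))).ne'))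
  set Φ : ℝ × ℝ → EuclideanSpace ℝ (Fin 3) := fun p =>
    !₂[μ * Real.sqrt (G p.1) * Real.cos (p.2 / μ + φ p.1),
       μ * Real.sqrt (G p.1) * Real.sin (p.2 / μ + φ p.1), H p.1]
    with hΦ
  have hUopen : IsOpen (Ioo (x₀ - ε) (x₀ + ε) ×ˢ (univ : Set ℝ)) :=
    isOpen_Ioo.prod isOpen_univ
  have hmaps : MapsTo (Prod.fst : ℝ × ℝ → ℝ) (Ioo (x₀ - ε) (x₀ + ε) ×ˢ (univ : Set ℝ))
      (Ioo (x₀ - ε) (x₀ + ε)) := fun p hp => hp.1
  have hang : ContDiffOn ℝ ∞ (fun p : ℝ × ℝ => p.2 / μ + φ p.1)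
      (Ioo (x₀ - ε) (x₀ + ε) ×ˢ (univ : Set ℝ)) :=
    (contDiff_snd.div_const μ).contDiffOn.add (hφ_smooth.comp contDiff_fst.contDiffOn hmaps)
  have hrad : ContDiffOn ℝ ∞ (fun p : ℝ × ℝ => μ * Real.sqrt (G p.1))
      (Ioo (x₀ - ε) (x₀ + ε) ×ˢ (univ : Set ℝ)) :=
    contDiffOn_const.mul (hsqrtG.comp contDiff_fst.contDiffOn hmaps)
  have hΦ_smooth : ContDiffOn ℝ ∞ Φ (Ioo (x₀ - ε) (x₀ + ε) ×ˢ (univ : Set ℝ)) := by
    rw [contDiffOn_euclidean]
    intro i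
    fin_cases i
    · have : ContDiffOn ℝ ∞ (fun p : ℝ × ℝ => μ * Real.sqrt (G p.1) * Real.cos (p.2 / μ + φ p.1))
          (Ioo (x₀ - ε) (x₀ + ε) ×ˢ (univ : Set ℝ)) :=
        hrad.mul (Real.contDiff_cos.comp_contDiffOn hang)
      simpa [hΦ] using this
    · have : ContDiffOn ℝ ∞ (fun p : ℝ × ℝ => μ * Real.sqrt (G p.1) * Real.sin (p.2 / μ + φ p.1))
          (Ioo (x₀ - ε) (x₀ + ε) ×ˢ (univ : Set ℝ)) :=
        hrad.mul (Real.contDiff_sin.comp_contDiffOn hang)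
      simpa [hΦ] using this
    · have : ContDiffOn ℝ ∞ (fun p : ℝ × ℝ => H p.1)
          (Ioo (x₀ - ε) (x₀ + ε) ×ˢ (univ : Set ℝ)) :=
        hH_smooth.comp contDiff_fst.contDiffOn hmaps
      simpa [hΦ] using this
  refine ⟨Ioo (x₀ - ε) (x₀ + ε) ×ˢ (univ : Set ℝ), Φ, hUopen, ⟨hx₀I, mem_univ _⟩, ?_,
    hΦ_smooth, ?_⟩
  · rintro ⟨x, y⟩ ⟨hx, -⟩
    have hGx := hεG x hx
    have hkx := hεk x hx
    simp only [hk] at hkx
    have hdetx : 0 < E x * G x - F x ^ 2 := by nlinarith [sq_nonneg (μ * deriv G x)]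
    refine ⟨?_, hdetx⟩
    by_contra hcon
    have hcon' : E x ≤ 0 := not_lt.1 hcon
    nlinarith [sq_nonneg (F x)]
  · rintro ⟨x, y⟩ hp
    obtain ⟨hx, -⟩ := hp
    have hGx := hεG x hx
    have hkx := hεk x hx
    have hdiff : DifferentiableAt ℝ Φ (x, y) :=
      (hΦ_smooth.contDiffAt (hUopen.mem_nhds ⟨hx, mem_univ _⟩)).differentiableAt (by simp)
    have hγ₁ : HasDerivAt (fun τ : ℝ => (τ, y)) ((1 : ℝ), (0 : ℝ)) x :=
      (hasDerivAt_id x).prodMk (hasDerivAt_const x y)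
    have hγ₂ : HasDerivAt (fun τ : ℝ => (x, τ)) ((0 : ℝ), (1 : ℝ)) y :=
      (hasDerivAt_const y x).prodMk (hasDerivAt_id y)
    set w := Real.sqrt (G x) with hw
    have hw0 : 0 < w := Real.sqrt_pos.2 hGx
    have hww : w * w = G x := Real.mul_self_sqrt hGx.le
    have hr : HasDerivAt (fun τ => μ * Real.sqrt (G τ)) (μ * (deriv G x / (2 * w))) x :=
      ((hGd x).sqrt hGx.ne').const_mul μ
    have hangx : HasDerivAt (fun τ => y / μ + φ τ) (F x / (μ * G x)) x :=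
      (hφ x hx).const_add _
    have hangy : HasDerivAt (fun τ : ℝ => τ / μ + φ x) (1 / μ) y :=
      ((hasDerivAt_id y).div_const μ).add_const _
    have hx0 : (fderiv ℝ Φ (x, y) (1, 0)) 0 =
        μ * (deriv G x / (2 * w)) * Real.cos (y / μ + φ x) +
          μ * w * (- Real.sin (y / μ + φ x) * (F x / (μ * G x))) := by
      refine fderiv_apply_comp hdiff hγ₁ rfl 0 ?_
      have : HasDerivAt (fun τ => μ * Real.sqrt (G τ) * Real.cos (y / μ + φ τ))
          (μ * (deriv G x / (2 * w)) * Real.cos (y / μ + φ x) +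
            μ * w * (- Real.sin (y / μ + φ x) * (F x / (μ * G x)))) x := hr.mul hangx.cos
      simpa [hΦ] using this
    have hx1 : (fderiv ℝ Φ (x, y) (1, 0)) 1 =
        μ * (deriv G x / (2 * w)) * Real.sin (y / μ + φ x) +
          μ * w * (Real.cos (y / μ + φ x) * (F x / (μ * G x))) := by
      refine fderiv_apply_comp hdiff hγ₁ rfl 1 ?_
      have : HasDerivAt (fun τ => μ * Real.sqrt (G τ) * Real.sin (y / μ + φ τ))
          (μ * (deriv G x / (2 * w)) * Real.sin (y / μ + φ x) +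
            μ * w * (Real.cos (y / μ + φ x) * (F x / (μ * G x)))) x := hr.mul hangx.sin
      simpa [hΦ] using this
    have hx2 : (fderiv ℝ Φ (x, y) (1, 0)) 2 = Real.sqrt (k x / (4 * G x)) := by
      refine fderiv_apply_comp hdiff hγ₁ rfl 2 ?_
      simpa [hΦ] using hH x hx
    have hy0 : (fderiv ℝ Φ (x, y) (0, 1)) 0 =
        μ * w * (- Real.sin (y / μ + φ x) * (1 / μ)) := by
      refine fderiv_apply_comp hdiff hγ₂ rfl 0 ?_
      have : HasDerivAt (fun τ => μ * Real.sqrt (G x) * Real.cos (τ / μ + φ x))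
          (μ * w * (- Real.sin (y / μ + φ x) * (1 / μ))) y := hangy.cos.const_mul (μ * w)
      simpa [hΦ] using this
    have hy1 : (fderiv ℝ Φ (x, y) (0, 1)) 1 =
        μ * w * (Real.cos (y / μ + φ x) * (1 / μ)) := by
      refine fderiv_apply_comp hdiff hγ₂ rfl 1 ?_
      have : HasDerivAt (fun τ => μ * Real.sqrt (G x) * Real.sin (τ / μ + φ x))
          (μ * w * (Real.cos (y / μ + φ x) * (1 / μ))) y := hangy.sin.const_mul (μ * w)
      simpa [hΦ] using this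
    have hy2 : (fderiv ℝ Φ (x, y) (0, 1)) 2 = 0 := by
      refine fderiv_apply_comp hdiff hγ₂ rfl 2 ?_
      simpa [hΦ] using hasDerivAt_const y (H x)
    have hsq : Real.sqrt (k x / (4 * G x)) * Real.sqrt (k x / (4 * G x)) = k x / (4 * G x) :=
      Real.mul_self_sqrt (div_pos hkx (mul_pos (by norm_num) hGx)).le
    have hcs : Real.sin (y / μ + φ x) ^ 2 + Real.cos (y / μ + φ x) ^ 2 = 1 :=
      Real.sin_sq_add_cos_sq _
    have hw_ne : w ≠ 0 := hw0.ne'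
    refine ⟨?_, ?_, ?_⟩
    · rw [inner_eq_three, hx0, hx1, hx2, hsq]
      simp only [hk]
      rw [← hww]
      exact killing_alg1 μ w (deriv G x) (F x) (E x) _ _ hμne hw_ne hcs
    · rw [inner_eq_three, hx0, hx1, hx2, hy0, hy1, hy2]
      simp only
      rw [← hww, mul_zero]
      have := killing_alg2 μ w (deriv G x) (F x) _ _ hμne hw_ne hcs
      rw [mul_zero] at this
      exact this
    · rw [inner_eq_three, hy0, hy1, hy2]
      simp only
      rw [← hww]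
      exact killing_alg3 μ w _ _ hμne hcs

end Vale.Agent.H62.P229
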