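import Mathlib
import Vale.Agent.H62.P229.Defs
import Vale.Agent.H62.P229.Prim
import Vale.Agent.H62.P229.Comp

open scoped ContDiff Topology
open Set

namespace Vale.Agent.H62.P229

/-- Ruled-surface metrics are locally smoothly realizable. -/
theorem ruled_realizable (α β γ : ℝ → ℝ)
    (hα : ContDiff ℝ ∞ α) (hβ : ContDiff ℝ ∞ β) (hγ : ContDiff ℝ ∞ γ)
    (x₀ y₀ : ℝ) (h0 : (α y₀ + β y₀ * x₀) ^ 2 + γ y₀ ^ 2 ≠ 0) :
    LocallySmoothlyRealizableAt (fun _ => 1) (fun _ => 0)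
      (fun p => (α p.2 + β p.2 * p.1) ^ 2 + γ p.2 ^ 2) (x₀, y₀) := by
  obtain ⟨θ, hθ_smooth, hθ⟩ := exists_primitive hβ
  obtain ⟨c₁, hc₁_smooth, hc₁⟩ := exists_primitive (u := fun y => - α y * Real.sin (θ y))
    (hα.neg.mul (Real.contDiff_sin.comp hθ_smooth))
  obtain ⟨c₂, hc₂_smooth, hc₂⟩ := exists_primitive (u := fun y => α y * Real.cos (θ y))
    (hα.mul (Real.contDiff_cos.comp hθ_smooth))
  obtain ⟨v, hv_smooth, hv⟩ := exists_primitive hγ
  set Φ : ℝ × ℝ → EuclideanSpace ℝ (Fin 3) := fun p =>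
    !₂[c₁ p.2 + p.1 * Real.cos (θ p.2), c₂ p.2 + p.1 * Real.sin (θ p.2), v p.2]
    with hΦ
  set V : Set (ℝ × ℝ) := {p | (α p.2 + β p.2 * p.1) ^ 2 + γ p.2 ^ 2 ≠ 0} with hVdef
  have hV : IsOpen V := by
    have hcont : Continuous fun p : ℝ × ℝ => (α p.2 + β p.2 * p.1) ^ 2 + γ p.2 ^ 2 :=
      (((hα.continuous.comp continuous_snd).add
        ((hβ.continuous.comp continuous_snd).mul continuous_fst)).pow 2).add
        ((hγ.continuous.comp continuous_snd).pow 2)
    exact isOpen_ne_fun hcont continuous_const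
  have hΦ_smooth : ContDiff ℝ ∞ Φ := by
    rw [contDiff_euclidean]
    intro i
    fin_cases i
    · have : ContDiff ℝ ∞ fun p : ℝ × ℝ => c₁ p.2 + p.1 * Real.cos (θ p.2) :=
        (hc₁_smooth.comp contDiff_snd).add (contDiff_fst.mul
          (Real.contDiff_cos.comp (hθ_smooth.comp contDiff_snd)))
      simpa [hΦ] using this
    · have : ContDiff ℝ ∞ fun p : ℝ × ℝ => c₂ p.2 + p.1 * Real.sin (θ p.2) :=
        (hc₂_smooth.comp contDiff_snd).add (contDiff_fst.mul
          (Real.contDiff_sin.comp (hθ_smooth.comp contDiff_snd)))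
      simpa [hΦ] using this
    · have : ContDiff ℝ ∞ (fun p : ℝ × ℝ => v p.2) := hv_smooth.comp contDiff_snd
      simpa [hΦ] using this
  refine ⟨V, Φ, hV, h0, ?_, hΦ_smooth.contDiffOn, ?_⟩
  · rintro ⟨x, y⟩ hxy
    have hxy' : (α y + β y * x) ^ 2 + γ y ^ 2 ≠ 0 := hxy
    refine ⟨one_pos, ?_⟩
    have : 0 ≤ (α y + β y * x) ^ 2 + γ y ^ 2 := by positivity
    have : 0 < (α y + β y * x) ^ 2 + γ y ^ 2 := lt_of_le_of_ne this (Ne.symm hxy')
    simp only
    linarith
  · rintro ⟨x, y⟩ -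
    have hdiff : DifferentiableAt ℝ Φ (x, y) :=
      hΦ_smooth.contDiffAt.differentiableAt (by simp)
    have hγ₁ : HasDerivAt (fun τ : ℝ => (τ, y)) ((1 : ℝ), (0 : ℝ)) x :=
      (hasDerivAt_id x).prodMk (hasDerivAt_const x y)
    have hγ₂ : HasDerivAt (fun τ : ℝ => (x, τ)) ((0 : ℝ), (1 : ℝ)) y :=
      (hasDerivAt_const y x).prodMk (hasDerivAt_id y)
    have hx0 : (fderiv ℝ Φ (x, y) (1, 0)) 0 = Real.cos (θ y) := by
      refine fderiv_apply_comp hdiff hγ₁ rfl 0 ?_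
      have : HasDerivAt (fun τ => c₁ y + τ * Real.cos (θ y)) (1 * Real.cos (θ y)) x :=
        ((hasDerivAt_id x).mul_const _).const_add _
      simpa [hΦ] using this
    have hx1 : (fderiv ℝ Φ (x, y) (1, 0)) 1 = Real.sin (θ y) := by
      refine fderiv_apply_comp hdiff hγ₁ rfl 1 ?_
      have : HasDerivAt (fun τ => c₂ y + τ * Real.sin (θ y)) (1 * Real.sin (θ y)) x :=
        ((hasDerivAt_id x).mul_const _).const_add _
      simpa [hΦ] using this
    have hx2 : (fderiv ℝ Φ (x, y) (1, 0)) 2 = 0 := by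
      refine fderiv_apply_comp hdiff hγ₁ rfl 2 ?_
      simpa [hΦ] using hasDerivAt_const x (v y)
    have hy0 : (fderiv ℝ Φ (x, y) (0, 1)) 0 =
        - α y * Real.sin (θ y) + x * (- Real.sin (θ y) * β y) := by
      refine fderiv_apply_comp hdiff hγ₂ rfl 0 ?_
      have : HasDerivAt (fun τ => c₁ τ + x * Real.cos (θ τ))
          (- α y * Real.sin (θ y) + x * (- Real.sin (θ y) * β y)) y :=
        (hc₁ y).add (((hθ y).cos).const_mul _)
      simpa [hΦ] using this
    have hy1 : (fderiv ℝ Φ (x, y) (0, 1)) 1 =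
        α y * Real.cos (θ y) + x * (Real.cos (θ y) * β y) := by
      refine fderiv_apply_comp hdiff hγ₂ rfl 1 ?_
      have : HasDerivAt (fun τ => c₂ τ + x * Real.sin (θ τ))
          (α y * Real.cos (θ y) + x * (Real.cos (θ y) * β y)) y :=
        (hc₂ y).add (((hθ y).sin).const_mul _)
      simpa [hΦ] using this
    have hy2 : (fderiv ℝ Φ (x, y) (0, 1)) 2 = γ y := by
      refine fderiv_apply_comp hdiff hγ₂ rfl 2 ?_
      simpa [hΦ] using hv y
    have hcs : Real.sin (θ y) ^ 2 + Real.cos (θ y) ^ 2 = 1 := Real.sin_sq_add_cos_sq (θ y)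
    refine ⟨?_, ?_, ?_⟩
    · rw [inner_eq_three, hx0, hx1, hx2]
      nlinarith
    · rw [inner_eq_three, hx0, hx1, hx2, hy0, hy1, hy2]
      ring
    · rw [inner_eq_three, hy0, hy1, hy2]
      have : (-α y * Real.sin (θ y) + x * (-Real.sin (θ y) * β y)) *
            (-α y * Real.sin (θ y) + x * (-Real.sin (θ y) * β y)) +
          (α y * Real.cos (θ y) + x * (Real.cos (θ y) * β y)) *
            (α y * Real.cos (θ y) + x * (Real.cos (θ y) * β y)) + γ y * γ y =
          (α y + β y * x) ^ 2 * (Real.sin (θ y) ^ 2 + Real.cos (θ y) ^ 2) + γ y ^ 2 := by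
        ring
      rw [this, hcs]
      ring

end Vale.Agent.H62.P229
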